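import Vale.Agent.P275HC.Loc

/-!
# P275, block HC: the composite of the transformations along all eigenlines is the identity
-/

set_option linter.unusedSectionVars false

open scoped Topology Matrix.Norms.Operator
open Set Filter Metric Matrix

noncomputable section

namespace Vale.Agent.P275HC

open Vale.Agent.P275GC Vale.Agent.P275GC.At Vale.Agent.P275MO Vale.Agent.P275MB Vale.Agent.P275HE
open Vale.Agent.P275NA (Fm Cy Mn)
open Vale.Agent.P281Z.Hm (an_det an_inv)

variable {C : Type} [TopologicalSpace C] [T2Space C] {n : ℕ} {A : At C} {l : Cy A ℂ} {τ : Ty n}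
  {z z' z'' : Dat C A.N n} {c : C} {V V' : Fm A (Mn n)} {h h' : Mn n} {r r' : ℝ} {h1 : 1 < r}
  {h2 : r ≤ A.R} {i : Fin A.N} {w : ℂ} {o : Fin n} {j : Fin τ.m} {κ : ℝ} {t : Fin A.N → ℂ}

/-- an isomorphism of Higgs bundles away from `c` -/
structure Mer (A : At C) (c : C) (z z' : Dat C A.N n) (V : Fm A (Mn n)) (h : Mn n) : Prop where
  lam : z'.lam = z.lam
  x : z'.x = z.x
  hol : ∀ i, DifferentiableOn ℂ (V i) (off A c i)
  det : ∀ i, ∀ w ∈ off A c i, (V i w).det ≠ 0
  law : ∀ i j, ∀ w ∈ A.O i j, (A.e i).symm w ≠ c →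
    V i w * z.g i j w = z'.g i j w * V j (A.tr i j w)
  con : ∀ i, ∀ w ∈ off A z.x i, (A.e i).symm w ≠ c → z'.a i w * V i w = V i w * z.a i w
  fr : ∀ i, z.x ∈ (A.e i).source → V i (A.e i z.x) * z.σ i = z'.σ i * h

theorem Mer.an (f : Mer A c z z' V h) (hw : w ∈ off A c i) : AnalyticAt ℂ (V i) w :=
  (f.hol i).analyticAt ((off_open c i).mem_nhds hw)

theorem Mer.mono (f : Mer (A.res r h1 h2) c z z' V h) (h1' : 1 < r') (h3 : r' ≤ r) :
    Mer (A.res r' h1' (h3.trans h2)) c z z' V h :=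
  have : Mer ((A.res r h1 h2).res r' h1' h3) c z z' V h :=
    ⟨f.lam, f.x, fun i => (f.hol i).mono off_res, fun i w a => f.det i w (off_res a),
      fun i j w a => f.law i j w (res_O.1 a).1, fun i w a => f.con i w (off_res a),
      fun i a => f.fr i a.1⟩
  (rr h1' h3 fun E => Mer (E.at h1') c z z' V h).1 this

theorem Mer.trans (f : Mer A c z z' V h) (f' : Mer A c z' z'' V' h') :
    Mer A c z z'' (fun i w => V' i w * V i w) (h' * h) := by
  refine ⟨f'.lam.trans f.lam, f'.x.trans f.x, fun i => (f'.hol i).mul (f.hol i),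
    fun i w a => by rw [Matrix.det_mul]; exact mul_ne_zero (f'.det i w a) (f.det i w a),
    fun i j w a b => by
      rw [mul_assoc, f.law i j w a b, ← mul_assoc, f'.law i j w a b, mul_assoc],
    fun i w a b => by
      rw [← mul_assoc, f'.con i w (f.x ▸ a) b, mul_assoc, f.con i w a b, mul_assoc],
    fun i a => ?_⟩
  have := f'.fr i (f.x ▸ a)
  rw [f.x] at this
  rw [mul_assoc, f.fr i a, ← mul_assoc, this, mul_assoc]

theorem mer_iso (f : IsoBy A z z' V h) (h0 : z.lam = 0) : Mer A c z z' V h :=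
  ⟨f.lam, f.x, fun i => (f.hol i).mono fun _ a => a.1, fun i w a => f.det i w a.1,
    fun i j w a _ => f.law i j w a, fun i w a _ => by simpa [h0] using f.con i w a, f.fr⟩

theorem Mer.R (g : Good A l z) (g' : Good A l z') (f : Mer A c z z' V h) (hc : c ≠ z.x) :
    z'.R * h = h * z.R := by
  obtain ⟨i, hx, -⟩ := A.cov z.x
  have k := lim_an (f.an (mem_off hx hc.symm))
  have p := g'.pole i (f.x ▸ hx)
  rw [f.x] at p
  have e := tendsto_nhds_unique_of_eventuallyEq (p.mul k) (k.mul (g.pole i hx))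
    (((off_ev hx).and (ev_ne' (map_src hx) i c)).mono fun w a => by
      simp only [smul_mul_assoc, mul_smul_comm, f.con i w a.1 a.2.2])
  have u := (g'.fr i (f.x ▸ hx)).isUnit
  have b := congrArg (fun X => (z'.σ i)⁻¹ * X * z.σ i) e
  simp only [mul_assoc, nonsing_inv_mul_cancel_left _ _ u, nonsing_inv_mul _ (g.fr i hx).isUnit,
    mul_one] at b
  rwa [← mul_assoc (V i _), f.fr i hx, nonsing_inv_mul_cancel_left _ _ u, mul_assoc,
    nonsing_inv_mul_cancel_left _ _ u] at b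

theorem smp_R (ht : HTy τ o j κ) {R : Mn n} (hq : R ∈ τ.q) (hi : (τ.η R j).im ≠ 0) :
    Smp R.charpoly (R o o) := by
  refine NR.smp (lam := 0) ⟨_, ht.chp R hq, fun k => ?_⟩
  have a : (n : ℂ) ≠ 0 := by exact_mod_cast (Fin.pos o).ne'
  have b : τ.η R j ≠ 0 := fun e => hi (by rw [e]; rfl)
  have d : (κ : ℂ) ≠ 0 := by exact_mod_cast ht.ne
  rw [ht.eta R hq, Polynomial.eval_pow, Polynomial.eval_sub, Polynomial.eval_X, Polynomial.eval_C]
  refine pow_ne_zero _ fun e => mul_ne_zero a (mul_ne_zero d b) ?_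
  linear_combination -e

theorem mer_hk (ht : HTy τ o j κ) (g : Good A l z) (g' : Good A l z') (k : Hk A o z z' c t V)
    (h0 : z.lam = 0) (hc : c ≠ z.x) (hq : z.R ∈ τ.q) (hi : (τ.η z.R j).im ≠ 0) :
    ∃ h ∈ τ.H, Mer A c z z' V h := by
  obtain ⟨i, hx, -⟩ := A.cov z.x
  have e := k.x
  have u := (g'.fr i (e ▸ hx)).isUnit
  have f : Mer A c z z' V ((z'.σ i)⁻¹ * V i (A.e i z.x) * z.σ i) :=
    ⟨k.lam, e, k.hol, fun i w a => by rw [k.det i w a]; exact one_ne_zero, k.law,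
      fun i w a b => by simpa [h0] using k.con i w a b, fun j a => by
        rw [g.frc j i a hx, ← mul_assoc, k.law j i _ (mem_O a hx) (mem_off a hc.symm).2, tr_e a,
          g'.frc j i (e ▸ a) (e ▸ hx), e, mul_assoc, mul_assoc, mul_assoc,
          mul_nonsing_inv_cancel_left _ _ u]⟩
  refine ⟨_, ?_, f⟩
  generalize (z'.σ i)⁻¹ * V i (A.e i z.x) * z.σ i = h at f
  have a := f.R g g' hc
  rw [k.R, h0, zero_smul, add_zero] at a
  have s := smp_R ht hq hi
  have b := sp_conj s s a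
  rw [sp_pe k.spl s] at b
  obtain ⟨U, d, -, d1, d2⟩ := k.fr i hx
  simp only [ex, if_neg hc, pow_zero, one_smul] at d1
  rw [tendsto_nhds_unique d1 (lim_an (f.an (mem_off hx hc.symm))), f.fr i hx, mul_assoc,
    ← mul_smul_comm] at d2
  have m : pe o ∈ τ.H := ht.row _ fun a b e => by simp [pe, e.symm]
  rw [← mul_one h, ← add_sub_cancel (pe o) 1, mul_add, mul_pe b.symm,
    ((isUnit_iff_isUnit_det _).2 u).mul_left_cancel d2]
  exact add_mem (τ.H.smul_mem m _) (τ.H.smul_mem (sub_mem (one_mem _) m) _)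

theorem lh0 (k : Hk A o z z' c t V) (g' : Good A l z') (h0 : z.lam = 0) (hc : c ≠ z.x)
    (hy : c ∈ (A.e i).source) : ∃ W, LH n 0 (A.e i c) (t i) (z.a i) W ∧
      ∀ᶠ w in 𝓝[≠] (A.e i c), (w - A.e i c) • V i w = W w := by
  obtain ⟨U, h1, h2⟩ := k.loc i hy
  obtain ⟨W, a, b, e⟩ := ext_of (f := fun w => (w - A.e i c) • V i w)
    ((off_ev hy).mono fun w hw => (differentiableAt_id.sub_const _).smul
      ((k.hol i).differentiableAt ((off_open c i).mem_nhds hw))) h1
  refine ⟨W, ⟨a, ⟨z'.a i, a_an g' (mem_off hy (k.x ▸ hc)), ?_⟩,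
    ⟨fun _ => 1, analyticAt_const, one_ne_zero, ?_⟩, fun v hv => ?_⟩, e⟩
  · filter_upwards [e, off_ev hy, ev_ne' (map_src hy) i z.x] with w e1 e3 e4
    have := k.con i w e4 e3.2
    rw [h0, zero_smul, zero_add] at this
    rw [zero_mul, zero_smul, zero_add, ← e1, mul_smul_comm, this, smul_mul_assoc]
  · filter_upwards [e, off_ev hy] with w e1 e2
    rw [← e1, det_smul, k.det i w e2, Fintype.card_fin]
  · have := h2 v (b ▸ hv)
    rwa [val, if_neg hc] at this

/-- a removable singularity -/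
theorem Mer.iso (g : Good A l z) (g' : Good A l z') (f : Mer A c z z' V h) (h0 : z.lam = 0)
    (hc : c ≠ z.x) (hy : c ∈ (A.e i).source) {ψ : ℂ → Mn n} (a : AnalyticAt ℂ ψ (A.e i c))
    (d : (ψ (A.e i c)).det ≠ 0) (e : ∀ᶠ w in 𝓝[≠] (A.e i c), V i w = ψ w) :
    IsoBy A z z' (fun j => xm (V j)) h := by
  have k : ∀ j, ∀ w ∈ ball (0 : ℂ) A.R, ∃ χ, AnalyticAt ℂ χ w ∧ (χ w).det ≠ 0 ∧
      ∀ᶠ y in 𝓝[≠] w, V j y = χ y := fun j w b => by
    by_cases m : (A.e j).symm w = c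
    · have hO : w ∈ A.O j i := ⟨b, by rwa [mem_preimage, m]⟩
      have e1 : A.tr j i w = A.e i c := congrArg _ m
      refine ⟨fun y => z'.g j i y * ψ (A.tr j i y) * (z.g j i y)⁻¹,
        ((g'.cc.an hO).mul ((e1 ▸ a).comp (an_tr hO))).mul (an_inv (g.cc.an hO) (g.cc.det_ne hO)),
        ?_, ?_⟩
      · rw [Matrix.det_mul, Matrix.det_mul, e1]
        exact mul_ne_zero (mul_ne_zero (g'.cc.det_ne hO) d)
          (isUnit_nonsing_inv_det _ (g.cc.det_ne hO).isUnit).ne_zero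
      · filter_upwards [(tends_tr hO).eventually (e1 ▸ e), ev_ne' b j c,
          nhdsWithin_le_nhds (O_nhds hO)] with y k1 k2 k3
        rw [← k1, ← f.law j i y k3 k2.2, mul_nonsing_inv_cancel_right _ _ (g.cc.det_ne k3).isUnit]
    · exact ⟨V j, f.an ⟨b, m⟩, f.det j w ⟨b, m⟩, .of_forall fun _ => rfl⟩
  have an : ∀ j, ∀ w ∈ ball (0 : ℂ) A.R, AnalyticAt ℂ (xm (V j)) w := fun j w b =>
    let ⟨_, k1, _, k3⟩ := k j w b; xm_an k1 k3
  have ev : ∀ j, ∀ w ∈ ball (0 : ℂ) A.R, ∀ᶠ y in 𝓝[≠] w, xm (V j) y = V j y := fun j w b =>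
    (ev_ne' b j c).mono fun y m => xm_self (f.an m)
  refine ⟨⟨f.lam, f.x, hl_of an, fun j j' w b => ?_, fun j w b => ?_⟩, fun j w b => ?_,
    fun j b => by rw [xm_self (f.an (mem_off b hc.symm)), f.fr j b]⟩
  · refine (ev_of_punct ((an j w b.1).mul (g.cc.an b)).continuousAt ((g'.cc.an b).mul
      ((an j' _ (tr_ball b)).comp (an_tr b))).continuousAt ?_).self_of_nhds
    filter_upwards [ev j w b.1, (tends_tr b).eventually (ev j' _ (tr_ball b)), ev_ne' b.1 j c,
      nhdsWithin_le_nhds (O_nhds b)] with y k1 k2 k3 k4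
    exact (congrArg (· * _) k1).trans ((f.law j j' y k4 k3.2).trans (congrArg (_ * ·) k2.symm))
  · rw [h0, zero_smul, zero_add]
    refine (ev_of_punct ((a_an g' (f.x ▸ b)).mul (an j w b.1)).continuousAt
      ((an j w b.1).mul (a_an g b)).continuousAt ?_).self_of_nhds
    filter_upwards [ev j w b.1, ev_ne' b.1 j c, ev_ne' b.1 j z.x] with y k1 k2 k3
    exact (congrArg (_ * ·) k1).trans ((f.con j y k3 k2.2).trans (congrArg (· * _) k1.symm))
  · obtain ⟨_, k1, k2, k3⟩ := k j w b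
    rwa [(xm_ev k1 k3).self_of_nhds]

/-- **CMPS** -/
theorem cmps (ht : HTy τ o j κ) : CMPS A l τ o j := by
  intro μ c t i hm h0 hc hy hy1 hi hs hk
  set z0 := (μ 0).rep with hz0
  have e0 : z0.pt = μ 0 := Mod.pt_rep _
  rw [← e0, lam_pt] at h0
  rw [← e0, x_pt] at hc
  have src : ∀ {r} (h1 : 1 < r) (h2 : r ≤ A.R), c ∈ ((A.res r h1 h2).e i).source :=
    fun h1 _ => ⟨hy, unit_r h1 hy1⟩
  set p := A.e i c
  obtain ⟨r0, a0, b0, g0⟩ := Ob.ex z0
  have ha : AnalyticAt ℂ (z0.1.a i) p := a_an (A := A.res r0 a0 b0) g0 (mem_off (src a0 b0) hc)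
  choose θ θ1 θ2 θ3 _ using fun k => (an_char ha).ift (hs k)
  have inj : ∀ᶠ w in 𝓝 p, Function.Injective fun k => θ k w := by
    simp only [Function.Injective, eventually_all]
    intro a b
    by_cases e : a = b
    · exact .of_forall fun _ _ => e
    · exact (((θ1 a).sub (θ1 b)).continuousAt.eventually_ne (y := 0) (by
        simpa [θ2, sub_eq_zero] using hi.ne e)).mono fun w k k' => (k (sub_eq_zero.2 k')).elim
  have all := eventually_all.2 θ3
  have key : ∀ m ≤ n, ∃ (z : Ob A l τ) (r : ℝ) (h1 : 1 < r) (h2 : r ≤ A.R) (V : Fm A (Mn n))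
      (h : Mn n) (ψ : ℂ → Mn n), z.pt = μ m ∧ (μ m).η = (μ 0).η ∧ Good (A.res r h1 h2) l z0.1 ∧
      Good (A.res r h1 h2) l z.1 ∧ h ∈ τ.H ∧ Mer (A.res r h1 h2) c z0.1 z.1 V h ∧
      AnalyticAt ℂ ψ p ∧ (ψ p).det ≠ 0 ∧ ∀ᶠ w in 𝓝[≠] p, z.1.a i w * ψ w = ψ w * z0.1.a i w ∧
        (w - p) ^ m • V i w = ψ w * F ((w - p) ^ n) (z0.1.a i w) (fun k => θ k w) m := by
    intro m
    induction m with
    | zero =>
      exact fun _ => ⟨z0, r0, a0, b0, _, 1, fun _ => 1, e0, rfl, g0, g0, one_mem _,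
        mer_iso (isoBy_refl (A := A.res r0 a0 b0) z0.1) h0, analyticAt_const, by simp,
        .of_forall fun w => by simp [F_zero]⟩
    | succ m ih =>
      intro hm'
      obtain ⟨z, r, h1, h2, V, h, ψ, k1, k2, k3, k4, k5, k6, k7, k8, k9⟩ := ih (Nat.le_of_lt hm')
      obtain ⟨y, y', e1, e2, r', h1', h2', u, g, g', k⟩ := hk ⟨m, hm'⟩
      have d := lt_min h1 h1'
      obtain ⟨φ, h', m1, f⟩ := (pt_eq_iff' (Good.mono k4 d (min_le_left _ _))
        (Good.mono g d (min_le_right _ _))).1 (k1.trans e1.symm)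
      have lz := k6.lam.trans h0
      have ly := f.lam.trans lz
      have cy : c ≠ y.1.x := by rwa [f.x, k6.x]
      obtain ⟨h'', m2, f'⟩ := mer_hk ht g g' k ly cy y.2.2 (by
        rw [← η_pt, e1, k2]; exact hm.2)
      obtain ⟨W, w1, w2⟩ := lh0 k g' ly cy (src h1' h2')
      have aφ : AnalyticAt ℂ (φ i) p := f.hol.an (map_src (src d _)) i
      have e3 : ∀ᶠ w in 𝓝[≠] p, y.1.a i w * (φ i w * ψ w) = φ i w * ψ w * z0.1.a i w := by
        filter_upwards [k9, ev_ne' (map_src (src d ((min_le_left _ _).trans h2))) i z.1.x]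
          with w x1 x2
        have := f.con i w x2
        rw [lz, zero_smul, zero_add] at this
        rw [← mul_assoc, this, mul_assoc, x1.1, mul_assoc]
      obtain ⟨ψ', q1, q2, q3⟩ := step (Fin.pos o).ne' ha (a_an (A := A.res r' h1' h2') g (mem_off (src h1' h2') cy))
        (θ1 ⟨m, hm'⟩) (θ3 _) (by rw [θ2]; exact w1) (aφ.mul k7) (by
          rw [Pi.mul_apply, Matrix.det_mul]; exact mul_ne_zero (f.det i _ (map_src (src d _))) k8) e3
      refine ⟨y', _, d, _, _, _, ψ', e2, ?_, Good.mono k3 d (min_le_left _ _),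
        Good.mono g' d (min_le_right _ _), mul_mem m2 (mul_mem m1 k5),
        ((k6.mono d (min_le_left _ _)).trans (mer_iso f lz)).trans
          (f'.mono d (min_le_right _ _)), q1, q2, ?_⟩
      · rw [← e2, ← k2, ← e1, η_pt, η_pt, k.R, ly, zero_smul, add_zero]
      · filter_upwards [k9, w2, e3, nhdsWithin_le_nhds q3, nhdsWithin_le_nhds all,
          nhdsWithin_le_nhds inj, self_mem_nhdsWithin, off_ev (A := A.res r' h1' h2') (src h1' h2'),
          ev_ne' (A := A.res r' h1' h2') (map_src (src h1' h2')) i y.1.x] with w x1 x2 x3 x4 x5 x6 x7 x8 x9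
        have x10 : y'.1.a i w * W w = W w * y.1.a i w := by
          rw [← x2, mul_smul_comm, f'.con i w x9 x8.2, smul_mul_assoc]
        replace x4 : W w * (φ i w * ψ w) = _ := x4
        refine ⟨cancel_det (g := _) ?_ (by
          rw [mul_assoc, ← x4, ← mul_assoc, x10, mul_assoc, x3, ← mul_assoc, x4, mul_assoc,
            mul_assoc]
          congr 1
          simp only [mul_add, add_mul, mul_sub, sub_mul, mul_smul_comm, smul_mul_assoc,
            mul_sp (x5 _), sp_mul (x5 _), one_mul, mul_one]), ?_⟩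
        · have := det_sp (Z := 0) (x5 ⟨m, hm'⟩) ((w - p) ^ n) (zero_mul _) (mul_zero _)
          rw [sub_zero] at this
          rw [this]
          exact pow_ne_zero _ (sub_ne_zero.2 x7)
        · rw [← F_succ x5 x6 ⟨m, hm'⟩, ← mul_assoc (ψ' w), ← x4, mul_assoc (W w),
            mul_assoc (φ i w), ← x1.2, ← x2, pow_succ, mul_smul]
          simp only [mul_smul_comm, smul_mul_assoc]
          rfl
  obtain ⟨z, r, h1, h2, V, h, ψ, k1, -, k3, k4, k5, k6, k7, k8, k9⟩ := key n le_rfl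
  rw [← k1, ← e0]
  refine ((pt_eq_iff' k3 k4).2 ⟨_, h, k5, k6.iso k3 k4 h0 hc (src h1 h2) k7 k8 ?_⟩).symm
  filter_upwards [k9, nhdsWithin_le_nhds all, nhdsWithin_le_nhds inj, self_mem_nhdsWithin]
    with w x1 x2 x3 x4
  have := x1.2
  rw [F_top x2 x3, mul_smul_comm, mul_one] at this
  exact smul_right_injective _ (pow_ne_zero n (sub_ne_zero.2 x4)) this

end Vale.Agent.P275HC
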