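import Vale.Agent.P275HE.Psi
import Mathlib.LinearAlgebra.Trace

/-!
# P275, block HC: the composite of the transformations along all eigenlines, local part
-/

open scoped Topology Matrix.Norms.Operator
open Set Filter Metric Matrix

noncomputable section

namespace Vale.Agent.P275HC

open Vale.Agent.P275HE
open Vale.Agent.P275NA (Mn)
open Vale.Agent.P281Z.Hm (an_det an_of an_ent an_adj)

variable {n : ℕ} {B : Mn n} {s t p : ℂ} {τ : Fin n → ℂ}

theorem sp_orth (hs : Smp B.charpoly s) (ht : Smp B.charpoly t) (h : s ≠ t) :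
    sp B s * sp B t = 0 := by
  have a := mul_assoc (sp B s) B (sp B t)
  rw [sp_mul hs, mul_sp ht, smul_mul_assoc, mul_smul_comm, ← sub_eq_zero, ← sub_smul] at a
  exact (smul_eq_zero.1 a).resolve_left (sub_ne_zero.2 h)

/-- the sum of the first `m` projectors -/
def Q (B : Mn n) (τ : Fin n → ℂ) (m : ℕ) : Mn n := ∑ a : Fin n with a.val < m, sp B (τ a)

/-- the product of the first `m` steps -/
def F (s : ℂ) (B : Mn n) (τ : Fin n → ℂ) (m : ℕ) : Mn n := 1 + (s - 1) • Q B τ m

theorem F_zero : F s B τ 0 = 1 := by simp [F, Q]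

theorem F_succ (h : ∀ a, Smp B.charpoly (τ a)) (hi : Function.Injective τ) (k : Fin n) :
    (s • sp B (τ k) + (1 - sp B (τ k))) * F s B τ k = F s B τ (k + 1) := by
  have a : Q B τ (k + 1) = sp B (τ k) + Q B τ k := by
    rw [Q, Q, ← Finset.sum_insert (f := fun a => sp B (τ a)) (by simp)]
    refine Finset.sum_congr (Finset.ext fun a => ?_) fun _ _ => rfl
    simp only [Finset.mem_filter, Finset.mem_univ, true_and, Finset.mem_insert, Fin.ext_iff]
    omega
  have b : sp B (τ k) * Q B τ k = 0 := by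
    rw [Q, Finset.mul_sum]
    refine Finset.sum_eq_zero fun a m => sp_orth (h k) (h a) (hi.ne ?_)
    rintro rfl
    simp at m
  simp only [F, a, add_mul, sub_mul, mul_add, mul_smul_comm, smul_mul_assoc, b, one_mul, mul_one]
  module

theorem F_top (h : ∀ a, Smp B.charpoly (τ a)) (hi : Function.Injective τ) :
    F s B τ n = s • 1 := by
  have a : Q B τ n = ∑ a, sp B (τ a) := Finset.sum_congr (by simp) fun _ _ => rfl
  have b : Q B τ n * Q B τ n = Q B τ n := by
    rw [a, Finset.sum_mul]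
    refine Finset.sum_congr rfl fun c _ => ?_
    rw [Finset.mul_sum, Finset.sum_eq_single c (fun d _ e => sp_orth (h c) (h d) (hi.ne e.symm))
      (by simp), sp_sp (h c)]
  have c : IsIdempotentElem (toLin' (1 - Q B τ n)) := by
    rw [IsIdempotentElem, Module.End.mul_eq_comp, ← toLin'_mul, mul_sub, sub_mul, sub_mul, b]
    simp
  have d := LinearMap.IsIdempotentElem.eq_zero_of_trace_eq_zero c (by
    rw [trace_toLin'_eq, trace_sub, a, trace_sum]
    simp [tr_sp (h _)])
  rw [F, ← sub_eq_zero.1 (toLin'.map_eq_zero_iff.1 d)]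
  module

variable {a b W χ : ℂ → Mn n} {θ : ℂ → ℂ}

theorem an_char (h : AnalyticAt ℂ a p) : An n (fun w => (a w).charpoly) p := by
  refine ⟨.of_forall fun w => mon_char _, fun k => ?_⟩
  rcases le_or_gt k n with hk | hk
  · have e := fun M : Mn n => charpoly_coeff_eq_sum_minors M (n - k) (by simp)
    simp only [Fintype.card_fin, Nat.sub_sub_self hk] at e
    simp only [e]
    exact analyticAt_const.mul (Finset.analyticAt_fun_sum _ fun s _ =>
      an_det (an_of fun b c => an_ent h _ _))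
  · simp only [fun w => Polynomial.coeff_eq_zero_of_natDegree_lt ((mon_char (a w)).2.trans_lt hk)]
    exact analyticAt_const

theorem step (hn : n ≠ 0) (ha : AnalyticAt ℂ a p) (hb : AnalyticAt ℂ b p) (hθ : AnalyticAt ℂ θ p)
    (hs : ∀ᶠ w in 𝓝 p, Smp (a w).charpoly (θ w)) (hW : LH n 0 p (θ p) b W)
    (hχ : AnalyticAt ℂ χ p) (d : (χ p).det ≠ 0) (e : ∀ᶠ w in 𝓝[≠] p, b w * χ w = χ w * a w) :
    ∃ φ : ℂ → Mn n, AnalyticAt ℂ φ p ∧ (φ p).det ≠ 0 ∧ ∀ᶠ w in 𝓝 p,
      W w * χ w = φ w * ((w - p) ^ n • sp (a w) (θ w) + (1 - sp (a w) (θ w))) := by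
  have h0 := hs.self_of_nhds
  have hP : AnalyticAt ℂ (fun w => sp (a w) (θ w)) p :=
    ((((an_char ha).an_der (θ p)).comp (f := fun w => (w, θ w)) (analyticAt_id.prod hθ)).inv
      h0.2).smul (an_adj ((hθ.smul analyticAt_const).sub ha))
  obtain ⟨b', c1, c2⟩ := hW.con
  obtain ⟨δ, d1, d2, d3⟩ := hW.det
  have e0 := (ev_of_punct (hb.mul hχ).continuousAt (hχ.mul ha).continuousAt e).self_of_nhds
  refine LH.uniq (k := n) ha h0.nr ⟨by fun_prop, ⟨a, ha, ?_⟩,
    ⟨fun _ => 1, analyticAt_const, one_ne_zero, ?_⟩, fun v hv => ?_⟩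
    ⟨hW.an.mul hχ, ⟨b', c1, ?_⟩, ⟨fun w => δ w * (χ w).det, d1.mul (an_det hχ), mul_ne_zero d2 d,
      d3.mono fun w k => by rw [det_mul, k, mul_assoc]⟩, fun v hv => ?_⟩
  · filter_upwards [nhdsWithin_le_nhds hs] with w k
    rw [zero_mul, zero_smul, zero_add]
    simp only [mul_add, add_mul, mul_sub, sub_mul, mul_smul_comm, smul_mul_assoc, mul_sp k,
      sp_mul k, one_mul, mul_one]
  · filter_upwards [nhdsWithin_le_nhds hs] with w k
    simpa using det_sp (Z := 0) k ((w - p) ^ n) (zero_mul _) (mul_zero _)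
  · rw [sub_self, zero_pow hn, zero_smul, zero_add, sub_mulVec, one_mulVec, sub_eq_zero] at hv
    rw [hv, mulVec_mulVec, mul_sp h0, smul_mulVec]
  · filter_upwards [c2, e] with w k k'
    rw [zero_mul, zero_smul, zero_add] at k ⊢
    rw [← mul_assoc, k, mul_assoc, k', mul_assoc]
  · have := hW.ker (χ p *ᵥ v) (by rwa [mulVec_mulVec])
    rw [mulVec_mulVec, show b p * χ p = χ p * a p from e0, ← mulVec_mulVec, ← mulVec_smul] at this
    exact (mulVec_injective_iff_isUnit.2 ((isUnit_iff_isUnit_det _).2 d.isUnit)) this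

end Vale.Agent.P275HC
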